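import Vale.Agent.P174.Hyperlinear
import Vale.Agent.P174.Residual

/-!
Howie's conjecture for locally hyperlinear-or-indicable groups and their extensions.
-/

namespace Vale.Agent.Results.P174.HyperlinearByIndicable

open Vale.Agent.P174

universe u

theorem result :
    (∀ (G : Type u) [Group G],
      (∀ K : Subgroup G, K.FG →
        Hyperlinear K ∨ (∀ a b : K, a * b = b * a) ∨ ∃ φ : K →* Multiplicative ℤ, φ ≠ 1) →
      Howie G) ∧
    (∀ (G : Type u) [Group G] (N : Subgroup G) [N.Normal],
      Hyperlinear N → LocallyIndicable (G ⧸ N) → Howie G) ∧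
    (∀ (G : Type u) [Group G] (N : Subgroup G) [N.Normal],
      Finite N → LocallyIndicable (G ⧸ N) → Howie G) ∧
    (∀ (G : Type u) [Group G],
      (∀ K : Subgroup G, K.FG → Howie K ∨ ∃ φ : K →* Multiplicative ℤ, φ ≠ 1) → Howie G) ∧
    (∀ (G : Type u) [Group G] (N : Subgroup G) [N.Normal],
      Howie N → LocallyIndicable (G ⧸ N) → Howie G) ∧
    (∀ (G : Type u) [Group G],
      (∀ g : G, g ≠ 1 → ∃ (K : Type u) (_ : Group K) (f : G →* K), Howie K ∧ f g ≠ 1) → Howie G) := by
  refine ⟨fun G _ h => howie_of_forall_fg fun K hK => ?_,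
    fun _ _ N _ hN hQ => howie_extension N (howie_of_hyperlinear hN) hQ,
    fun _ _ N _ hN hQ => howie_extension N ?_ hQ,
    fun _ _ h => howie_of_forall_fg h,
    fun _ _ N _ hN hQ => howie_extension N hN hQ,
    fun _ _ h => howie_of_residually h⟩
  · rcases h K hK with h1 | h1 | h1
    · exact Or.inl (howie_of_hyperlinear h1)
    · exact Or.inl (howie_of_comm h1)
    · exact Or.inr h1
  · exact howie_of_hyperlinear (hyperlinear_of_finite N)

end Vale.Agent.Results.P174.HyperlinearByIndicable
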