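import Vale.Agent.P174.P.Extension

/-!
P174: systems nonsingular modulo a prime over extensions by residually p quotients.
-/

namespace Vale.Agent.Results.P174.PrimeNonsingularByResiduallyP

open Vale.Agent.P174 Vale.Agent.P174.P

universe u

theorem result (p : ℕ) [Fact p.Prime] :
    (∀ (G : Type u) [Group G],
      (∀ K : Subgroup G, K.FG → Hyperlinear K ∨ Howie K ∨ HowieP p K ∨
        ∃ φ : K →* Multiplicative (ZMod p), φ ≠ 1) → HowieP p G) ∧
    (∀ (G : Type u) [Group G] (N : Subgroup G) [N.Normal],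
      HowieP p N → LocallyPIndicable p (G ⧸ N) → HowieP p G) ∧
    (∀ (G : Type u) [Group G] (N : Subgroup G) [N.Normal],
      (Hyperlinear N ∨ Howie N) → ResiduallyP p (G ⧸ N) → HowieP p G) ∧
    (∀ (G : Type u) [Group G] (N : Subgroup G) [N.Normal],
      (Hyperlinear N ∨ Howie N) → ResiduallyP p (G ⧸ N) →
      ∀ (n : ℕ) (w : Monoid.Coprod G (FreeGroup (Fin n))) (j : Fin n),
        ¬ (p : ℤ) ∣ Multiplicative.toAdd (expSum G n w) j → Solvable' (fun _ : Fin 1 => w)) ∧
    (∀ (G : Type u) [Group G],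
      (∀ g : G, g ≠ 1 → ∃ (q : ℕ) (_ : Fact q.Prime) (K : Type u) (_ : Group K) (f : G →* K),
        HowieP q K ∧ f g ≠ 1) →
      ∀ (m n : ℕ) (w : Fin m → Monoid.Coprod G (FreeGroup (Fin n))),
        (∀ (q : ℕ) [Fact q.Prime], PNonsingular q w) → Solvable' w) := by
  have hbase : ∀ (G : Type u) [Group G], Hyperlinear G ∨ Howie G → HowieP p G :=
    fun _ _ h => (h.elim howie_of_hyperlinear id).howieP
  refine ⟨fun G _ h => howieP_of_forall_fg fun K hK => ?_,
    fun _ _ N _ hN hQ => howieP_extension N hN hQ,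
    fun _ _ N _ hN hQ => howieP_extension N (hbase _ hN) hQ.locallyPIndicable,
    fun _ _ N _ hN hQ n w j hj =>
      howieP_extension N (hbase _ hN) hQ.locallyPIndicable 1 n _ (pNonsingular_single w j hj),
    fun _ _ hG m n w hw => solvable_of_unimodular w hG hw⟩
  rcases h K hK with h1 | h1 | h1 | h1
  · exact Or.inl (hbase _ (Or.inl h1))
  · exact Or.inl (hbase _ (Or.inr h1))
  · exact Or.inl h1
  · exact Or.inr h1

end Vale.Agent.Results.P174.PrimeNonsingularByResiduallyP
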